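import Vale.Agent.P308.Main

namespace Vale.Agent.Results.P308.FPRAS

open Vale.Agent.P308

open Classical in
theorem result : ∃ (A : Query × List Bool → ℕ)
    (M : Turing.TM2ComputableInPolyTime codeInput codeNat A) (C d : ℕ),
    (∀ k, Finite (M.tm.Γ k)) ∧
    ∀ q : Query, 0 < q.ε → q.ε < 1 → 0 < q.δ → q.δ < 1 / 2 → ∀ r : ℕ,
      C * ((q.n : ℝ) + 1 / (q.ε : ℝ) + Real.log (1 / (q.δ : ℝ))) ^ d ≤ r →
      (1 - (q.δ : ℝ)) * 2 ^ r ≤ ((Finset.univ.filter fun b : Fin r → Bool =>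
        (1 - (q.ε : ℝ)) * numPM q.G ≤ A (q, List.ofFn b) ∧
          (A (q, List.ofFn b) : ℝ) ≤ (1 + (q.ε : ℝ)) * numPM q.G).card : ℝ) :=
  fpras

end Vale.Agent.Results.P308.FPRAS
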